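import Mathlib.Algebra.Module.StablyFree.Basic
import Mathlib.Algebra.Order.Chebyshev
import Mathlib.Algebra.Ring.IsFormallyReal
import Mathlib.Analysis.CStarAlgebra.Module.Constructions
import Mathlib.Analysis.CStarAlgebra.PositiveLinearMap
import Mathlib.Analysis.Complex.ExponentialBounds
import Mathlib.Analysis.InnerProductSpace.StarOrder
import Mathlib.Analysis.InnerProductSpace.l2Space
import Mathlib.Analysis.Normed.Operator.ContinuousAlgEquiv
import Mathlib.Combinatorics.Additive.Corner.Defs
import Mathlib.Combinatorics.Graph.Basic
import Mathlib.Combinatorics.SimpleGraph.Connectivity.Finite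
import Mathlib.Combinatorics.SimpleGraph.Girth
import Mathlib.Data.Finset.Functor
import Mathlib.Data.Finset.Slice
import Mathlib.Data.Finsupp.Encodable
import Mathlib.Data.Int.Star
import Mathlib.Data.Rat.Star
import Mathlib.GroupTheory.PresentedGroup
import Mathlib.GroupTheory.SemidirectProduct
import Mathlib.LinearAlgebra.Matrix.FiniteDimensional
import Mathlib.LinearAlgebra.Matrix.Swap
import Mathlib.ModelTheory.Graph
import Mathlib.Order.CompletePartialOrder
import Mathlib.RingTheory.PicardGroup
import Mathlib.RingTheory.SimpleRing.Principal
import Mathlib.RingTheory.TotallySplit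
import Mathlib.Tactic
import Mathlib.Topology.Order.Hom.Esakia
import Mathlib.Topology.Separation.CompletelyRegular

/-! The part of Mathlib that the development of this folder uses. -/
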